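import Crest.Agent.Lib.Switch.Index
import Crest.Agent.Lib.Switch.Spectral
import Crest.Agent.Lib.Switch.Connect
import Crest.Agent.Lib.Switch.Assembly

/-!
# S0453: the final glue.

`final_of_parts` derives the frozen statement from the three analytic facts:
* `hX`: the disjoint-pair part of `‖P f‖²` is nonnegative (Part X);
* `hZ`: the overlapping-pair part, triple by triple, is nonnegative (Part Z);
* `hL`: `⟨f, P f⟩ ≤ n² · swDir d f` (Johnson gap).
-/

set_option autoImplicit false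
set_option linter.unusedSimpArgs false

namespace Crest.Agent.Lib.Switch.FinalIdx

open Finset Crest.SwitchChain

variable {n : ℕ}

/-! ### Sorted pairs -/

/-- The pair `{a,b}` in sorted form. -/
def srt (a b : Fin n) (h : a ≠ b) : PairIdx n :=
  if h' : a < b then ⟨(a, b), h'⟩ else ⟨(b, a), lt_of_le_of_ne (not_lt.1 h') h.symm⟩

lemma srt_spec (a b : Fin n) (h : a ≠ b) :
    ((srt a b h).1.1 = a ∧ (srt a b h).1.2 = b) ∨ ((srt a b h).1.1 = b ∧ (srt a b h).1.2 = a) := by
  unfold srt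
  split_ifs <;> simp

lemma srt_val (R : Fin n → Fin n → ℝ) (hR : ∀ a b, R a b = R b a) (a b : Fin n) (h : a ≠ b) :
    R (srt a b h).1.1 (srt a b h).1.2 = R a b := by
  rcases srt_spec a b h with ⟨h1, h2⟩ | ⟨h1, h2⟩
  · rw [h1, h2]
  · rw [h1, h2, hR]

lemma srt_eq_self (i : PairIdx n) (a b : Fin n) (h : a ≠ b) (h1 : a = i.1.1) (h2 : b = i.1.2) :
    srt a b h = i := by
  subst h1 h2
  unfold srt
  rw [dif_pos i.2]

lemma srt_eq_swap (i : PairIdx n) (a b : Fin n) (h : a ≠ b) (h1 : a = i.1.2) (h2 : b = i.1.1) :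
    srt a b h = i := by
  subst h1 h2
  unfold srt
  rw [dif_neg (not_lt.2 i.2.le)]

lemma PairIdx.ext' {i j : PairIdx n} (h1 : i.1.1 = j.1.1) (h2 : i.1.2 = j.1.2) : i = j :=
  Subtype.ext (Prod.ext h1 h2)

/-! ### Expanding the square -/

open Classical in
/-- The overlapping ordered pairs of sorted pairs are the ordered triples. -/
lemma overlap_sum (R : Fin n → Fin n → ℝ) (hR : ∀ a b, R a b = R b a) :
    (∑ i : PairIdx n, ∑ j : PairIdx n, if i ≠ j ∧ ¬ PairIdx.Disj i j then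
        R i.1.1 i.1.2 * R j.1.1 j.1.2 else 0) =
      ∑ a : Fin n, ∑ b : Fin n, ∑ c : Fin n,
        if a ≠ b ∧ a ≠ c ∧ b ≠ c then R a b * R a c else 0 := by
  have e1 : (∑ i : PairIdx n, ∑ j : PairIdx n, if i ≠ j ∧ ¬ PairIdx.Disj i j then
        R i.1.1 i.1.2 * R j.1.1 j.1.2 else 0) =
      ∑ x ∈ (univ : Finset (PairIdx n × PairIdx n)).filter
        (fun x => x.1 ≠ x.2 ∧ ¬ PairIdx.Disj x.1 x.2),
        R x.1.1.1 x.1.1.2 * R x.2.1.1 x.2.1.2 := by
    rw [Finset.sum_filter, ← Finset.univ_product_univ, Finset.sum_product]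
  have e2 : (∑ a : Fin n, ∑ b : Fin n, ∑ c : Fin n,
        if a ≠ b ∧ a ≠ c ∧ b ≠ c then R a b * R a c else 0) =
      ∑ t ∈ (univ : Finset (Fin n × Fin n × Fin n)).filter
        (fun t => t.1 ≠ t.2.1 ∧ t.1 ≠ t.2.2 ∧ t.2.1 ≠ t.2.2),
        R t.1 t.2.1 * R t.1 t.2.2 := by
    rw [Finset.sum_filter, ← Finset.univ_product_univ, Finset.sum_product]
    refine Finset.sum_congr rfl fun a _ => ?_
    rw [← Finset.univ_product_univ, Finset.sum_product]
  rw [e1, e2]
  symm
  refine Finset.sum_bij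
    (fun t ht => (srt t.1 t.2.1 (mem_filter.1 ht).2.1, srt t.1 t.2.2 (mem_filter.1 ht).2.2.1))
    ?_ ?_ ?_ ?_
  · -- maps to
    rintro ⟨a, b, c⟩ ht
    obtain ⟨hab, hac, hbc⟩ := (mem_filter.1 ht).2
    simp only at hab hac hbc
    simp only [mem_filter, mem_univ, true_and]
    constructor
    · intro h
      have h1 := srt_spec a b hab
      have h2 := srt_spec a c hac
      rw [h] at h1
      generalize srt a c hac = q at h1 h2
      rcases h1 with ⟨h1, h1'⟩ | ⟨h1, h1'⟩ <;> rcases h2 with ⟨h2, h2'⟩ | ⟨h2, h2'⟩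
      · exact hbc (h1'.symm.trans h2')
      · exact hac (h1.symm.trans h2)
      · exact hab (h2.symm.trans h1)
      · exact hbc (h1.symm.trans h2)
    · intro h
      rcases srt_spec a b hab with ⟨h1, h1'⟩ | ⟨h1, h1'⟩ <;>
        rcases srt_spec a c hac with ⟨h2, h2'⟩ | ⟨h2, h2'⟩ <;>
        simp only [PairIdx.Disj, h1, h1', h2, h2'] at h <;> simp_all
  · -- injective
    rintro ⟨a, b, c⟩ ht ⟨a', b', c'⟩ ht' h
    obtain ⟨hab, hac, hbc⟩ := (mem_filter.1 ht).2
    obtain ⟨hab', hac', hbc'⟩ := (mem_filter.1 ht').2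
    simp only at hab hac hbc hab' hac' hbc'
    simp only [Prod.mk.injEq] at h
    obtain ⟨h1, h2⟩ := h
    have s1 := srt_spec a b hab
    have s2 := srt_spec a c hac
    have s1' := srt_spec a' b' hab'
    have s2' := srt_spec a' c' hac'
    rw [h1] at s1
    rw [h2] at s2
    simp only [Prod.mk.injEq]
    generalize srt a' b' hab' = p at s1 s1'
    generalize srt a' c' hac' = q at s2 s2'
    rcases s1 with ⟨s1, t1⟩ | ⟨s1, t1⟩ <;> rcases s2 with ⟨s2, t2⟩ | ⟨s2, t2⟩ <;>
      rcases s1' with ⟨s1', t1'⟩ | ⟨s1', t1'⟩ <;> rcases s2' with ⟨s2', t2'⟩ | ⟨s2', t2'⟩ <;>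
      simp_all
  · -- surjective
    rintro ⟨i, j⟩ hij
    obtain ⟨hne, hD⟩ := (mem_filter.1 hij).2
    simp only at hne hD
    have hi := i.2
    have hj := j.2
    have hi' : i.1.1 ≠ i.1.2 := hi.ne
    have hj' : j.1.1 ≠ j.1.2 := hj.ne
    by_cases c1 : i.1.1 = j.1.1
    · have hq : i.1.2 ≠ j.1.2 := fun h => hne (PairIdx.ext' c1 h)
      refine ⟨(i.1.1, i.1.2, j.1.2), mem_filter.2 ⟨mem_univ _, hi', ?_, hq⟩, ?_⟩
      · simpa [c1] using hj'
      · simp only [Prod.mk.injEq]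
        exact ⟨srt_eq_self i _ _ _ rfl rfl, srt_eq_self j _ _ _ c1 rfl⟩
    by_cases c2 : i.1.1 = j.1.2
    · have hq : i.1.2 ≠ j.1.1 := by
        intro h
        have h3 : i.1.1 < i.1.2 := hi
        rw [c2, h] at h3
        exact absurd h3 (not_lt.2 hj.le)
      refine ⟨(i.1.1, i.1.2, j.1.1), mem_filter.2 ⟨mem_univ _, hi', ?_, hq⟩, ?_⟩
      · simpa [c2] using hj'.symm
      · simp only [Prod.mk.injEq]
        exact ⟨srt_eq_self i _ _ _ rfl rfl, srt_eq_swap j _ _ _ c2 rfl⟩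
    by_cases c3 : i.1.2 = j.1.1
    · have hq : i.1.1 ≠ j.1.2 := c2
      refine ⟨(i.1.2, i.1.1, j.1.2), mem_filter.2 ⟨mem_univ _, hi'.symm, ?_, hq⟩, ?_⟩
      · simpa [c3] using hj'
      · simp only [Prod.mk.injEq]
        exact ⟨srt_eq_swap i _ _ _ rfl rfl, srt_eq_self j _ _ _ c3 rfl⟩
    by_cases c4 : i.1.2 = j.1.2
    · have hq : i.1.1 ≠ j.1.1 := c1
      refine ⟨(i.1.2, i.1.1, j.1.1), mem_filter.2 ⟨mem_univ _, hi'.symm, ?_, hq⟩, ?_⟩
      · simpa [c4] using hj'.symm
      · simp only [Prod.mk.injEq]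
        exact ⟨srt_eq_swap i _ _ _ rfl rfl, srt_eq_swap j _ _ _ c4 rfl⟩
    · exact absurd ⟨c1, c2, c3, c4⟩ hD
  · rintro ⟨a, b, c⟩ ht
    obtain ⟨hab, hac, hbc⟩ := (mem_filter.1 ht).2
    simp only
    rw [srt_val R hR a b hab, srt_val R hR a c hac]

open Classical in
/-- Pointwise expansion of `(∑ R_i)²`. -/
lemma sq_expand (R : Fin n → Fin n → ℝ) (hR : ∀ a b, R a b = R b a) :
    (∑ i : PairIdx n, R i.1.1 i.1.2) ^ 2 =
      ∑ i : PairIdx n, R i.1.1 i.1.2 ^ 2 +
      (∑ i : PairIdx n, ∑ j : PairIdx n, if PairIdx.Disj i j then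
        R i.1.1 i.1.2 * R j.1.1 j.1.2 else 0) +
      ∑ a : Fin n, ∑ b : Fin n, ∑ c : Fin n,
        if a ≠ b ∧ a ≠ c ∧ b ≠ c then R a b * R a c else 0 := by
  rw [← overlap_sum R hR, sq, Finset.sum_mul_sum]
  have h0 : ∀ i : PairIdx n, R i.1.1 i.1.2 ^ 2 =
      ∑ j : PairIdx n, if i = j then R i.1.1 i.1.2 * R j.1.1 j.1.2 else 0 := by
    intro i
    rw [Finset.sum_ite_eq]
    simp [sq]
  simp only [h0]
  rw [← Finset.sum_add_distrib, ← Finset.sum_add_distrib]
  refine Finset.sum_congr rfl fun i _ => ?_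
  rw [← Finset.sum_add_distrib, ← Finset.sum_add_distrib]
  refine Finset.sum_congr rfl fun j _ => ?_
  by_cases hij : i = j
  · subst hij
    have : ¬ PairIdx.Disj i i := fun h => h.1 rfl
    simp [this]
  · by_cases hD : PairIdx.Disj i j
    · simp [hij, hD]
    · simp [hij, hD]

/-! ### Symmetrisation over the triples -/

open Classical in
lemma triple_sum_symm (F : Fin n → Fin n → Fin n → ℝ) :
    3 * (∑ a : Fin n, ∑ b : Fin n, ∑ c : Fin n,
        if a ≠ b ∧ a ≠ c ∧ b ≠ c then F a b c else 0) =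
      ∑ a : Fin n, ∑ b : Fin n, ∑ c : Fin n,
        if a ≠ b ∧ a ≠ c ∧ b ≠ c then F a b c + F b a c + F c a b else 0 := by
  have e1 : (∑ a : Fin n, ∑ b : Fin n, ∑ c : Fin n,
        if a ≠ b ∧ a ≠ c ∧ b ≠ c then F b a c else 0) =
      ∑ a : Fin n, ∑ b : Fin n, ∑ c : Fin n,
        if a ≠ b ∧ a ≠ c ∧ b ≠ c then F a b c else 0 := by
    rw [Finset.sum_comm]
    refine Finset.sum_congr rfl fun a _ => Finset.sum_congr rfl fun b _ =>
      Finset.sum_congr rfl fun c _ => ?_
    by_cases h1 : a = b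
    · simp [h1]
    · by_cases h2 : b = c
      · simp [h2]
      · by_cases h3 : a = c
        · simp [h3]
        · simp [h1, h2, h3, Ne.symm h1]
  have e2 : (∑ a : Fin n, ∑ b : Fin n, ∑ c : Fin n,
        if a ≠ b ∧ a ≠ c ∧ b ≠ c then F c a b else 0) =
      ∑ a : Fin n, ∑ b : Fin n, ∑ c : Fin n,
        if a ≠ b ∧ a ≠ c ∧ b ≠ c then F a b c else 0 := by
    calc (∑ a : Fin n, ∑ b : Fin n, ∑ c : Fin n,
          if a ≠ b ∧ a ≠ c ∧ b ≠ c then F c a b else 0)
        = ∑ a : Fin n, ∑ c : Fin n, ∑ b : Fin n,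
          if a ≠ b ∧ a ≠ c ∧ b ≠ c then F c a b else 0 :=
          Finset.sum_congr rfl fun _ _ => Finset.sum_comm
      _ = ∑ c : Fin n, ∑ a : Fin n, ∑ b : Fin n,
          if a ≠ b ∧ a ≠ c ∧ b ≠ c then F c a b else 0 := Finset.sum_comm
      _ = _ := by
          refine Finset.sum_congr rfl fun a _ => Finset.sum_congr rfl fun b _ =>
            Finset.sum_congr rfl fun c _ => ?_
          by_cases h1 : a = b
          · simp [h1]
          · by_cases h2 : b = c
            · simp [h2]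
            · by_cases h3 : a = c
              · simp [h3]
              · simp [h1, h2, h3, Ne.symm h1, Ne.symm h3]
  have e3 : ∀ a b c : Fin n, (if a ≠ b ∧ a ≠ c ∧ b ≠ c then F a b c + F b a c + F c a b else 0) =
      (if a ≠ b ∧ a ≠ c ∧ b ≠ c then F a b c else 0) +
      (if a ≠ b ∧ a ≠ c ∧ b ≠ c then F b a c else 0) +
      (if a ≠ b ∧ a ≠ c ∧ b ≠ c then F c a b else 0) := by
    intro a b c
    split_ifs <;> simp
  simp only [e3, Finset.sum_add_distrib, e1, e2]
  ring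

/-! ### Knabe from the parts -/

section Knabe

variable (d : Fin n → ℕ) (f : Finset (Edge n) → ℝ)

/-- `Q_{a,b} f` as a function of the unordered pair. -/
noncomputable abbrev RR (G : Finset (Edge n)) (a b : Fin n) : ℝ :=
  resid (realizations d) (PairRel a b) f G

lemma pairRel_eq_comm (a b : Fin n) : (PairRel a b : Finset (Edge n) → Finset (Edge n) → Prop) =
    PairRel b a := by
  funext G G'
  exact propext pairRel_comm

lemma RR_comm (G : Finset (Edge n)) (a b : Fin n) : RR d f G a b = RR d f G b a := by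
  simp only [RR, pairRel_eq_comm a b]

open Classical in
/-- Knabe inequality from Part X and Part Z. -/
theorem knabe_of_parts
    (hX : 0 ≤ ∑ i : PairIdx n, ∑ j : PairIdx n, if PairIdx.Disj i j then
        ∑ G ∈ realizations d, Ri d f i G * Ri d f j G else 0)
    (hZ : ∀ a b c : Fin n, a ≠ b → a ≠ c → b ≠ c → 0 ≤ ∑ G ∈ realizations d,
        (RR d f G a b * RR d f G a c + RR d f G a b * RR d f G b c +
          RR d f G a c * RR d f G b c)) :
    ∑ i : PairIdx n, ∑ G ∈ realizations d, Ri d f i G ^ 2 ≤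
      ∑ G ∈ realizations d, (∑ i : PairIdx n, Ri d f i G) ^ 2 := by
  have h1 : ∀ G, (∑ i : PairIdx n, Ri d f i G) ^ 2 =
      ∑ i : PairIdx n, Ri d f i G ^ 2 +
      (∑ i : PairIdx n, ∑ j : PairIdx n, if PairIdx.Disj i j then
        Ri d f i G * Ri d f j G else 0) +
      ∑ a : Fin n, ∑ b : Fin n, ∑ c : Fin n,
        if a ≠ b ∧ a ≠ c ∧ b ≠ c then RR d f G a b * RR d f G a c else 0 :=
    fun G => sq_expand (RR d f G) (RR_comm d f G)
  simp only [h1, Finset.sum_add_distrib]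
  rw [Finset.sum_comm (s := realizations d)]
  have h2 : ∑ G ∈ realizations d, ∑ i : PairIdx n, ∑ j : PairIdx n,
      (if PairIdx.Disj i j then Ri d f i G * Ri d f j G else 0) =
      ∑ i : PairIdx n, ∑ j : PairIdx n, if PairIdx.Disj i j then
        ∑ G ∈ realizations d, Ri d f i G * Ri d f j G else 0 := by
    rw [Finset.sum_comm]
    refine Finset.sum_congr rfl fun i _ => ?_
    rw [Finset.sum_comm]
    refine Finset.sum_congr rfl fun j _ => ?_
    split_ifs <;> simp
  have h3 : 0 ≤ ∑ G ∈ realizations d, ∑ a : Fin n, ∑ b : Fin n, ∑ c : Fin n,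
      (if a ≠ b ∧ a ≠ c ∧ b ≠ c then RR d f G a b * RR d f G a c else 0) := by
    have h4 : ∀ G, 3 * (∑ a : Fin n, ∑ b : Fin n, ∑ c : Fin n,
        (if a ≠ b ∧ a ≠ c ∧ b ≠ c then RR d f G a b * RR d f G a c else 0)) =
        ∑ a : Fin n, ∑ b : Fin n, ∑ c : Fin n,
          if a ≠ b ∧ a ≠ c ∧ b ≠ c then
            (RR d f G a b * RR d f G a c + RR d f G a b * RR d f G b c +
              RR d f G a c * RR d f G b c) else 0 := by
      intro G
      rw [triple_sum_symm (fun a b c => RR d f G a b * RR d f G a c)]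
      refine Finset.sum_congr rfl fun a _ => Finset.sum_congr rfl fun b _ =>
        Finset.sum_congr rfl fun c _ => ?_
      refine if_congr Iff.rfl ?_ rfl
      rw [RR_comm d f G b a, RR_comm d f G c a, RR_comm d f G c b]
    have h5 : 0 ≤ ∑ G ∈ realizations d, 3 * (∑ a : Fin n, ∑ b : Fin n, ∑ c : Fin n,
        (if a ≠ b ∧ a ≠ c ∧ b ≠ c then RR d f G a b * RR d f G a c else 0)) := by
      simp only [h4]
      rw [Finset.sum_comm]
      refine Finset.sum_nonneg fun a _ => ?_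
      rw [Finset.sum_comm]
      refine Finset.sum_nonneg fun b _ => ?_
      rw [Finset.sum_comm]
      refine Finset.sum_nonneg fun c _ => ?_
      by_cases h : a ≠ b ∧ a ≠ c ∧ b ≠ c
      · simp only [if_pos h]
        exact hZ a b c h.1 h.2.1 h.2.2
      · simp [if_neg h]
    rw [← Finset.mul_sum] at h5
    linarith
  rw [h2]
  linarith

/-! ### Connectivity -/

lemma adj_iff_A (G : Finset (Edge n)) (a b : Fin n) : Adj G a b ↔ Connect.A G a b := Iff.rfl

open Classical in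
lemma Sw.pairRel {G G' : Finset (Edge n)} (h : Connect.Sw G G') :
    ∃ v w : Fin n, v ≠ w ∧ PairRel v w G G' := by
  obtain ⟨v, x, w, y, h1, h2, h3, h4, h5, h6, m1, m2, m3, m4, rfl⟩ := h
  refine ⟨v, w, h5, ?_⟩
  have key : ∀ a b, bit ((G \ {Connect.mkE v x h1, Connect.mkE w y h2}) ∪
      {Connect.mkE v y h3, Connect.mkE w x h4}) a b =
      if ((Connect.A G a b ∧ ¬ (a = v ∧ b = x ∨ a = x ∧ b = v) ∧
          ¬ (a = w ∧ b = y ∨ a = y ∧ b = w)) ∨
        (a = v ∧ b = y ∨ a = y ∧ b = v) ∨ (a = w ∧ b = x ∨ a = x ∧ b = w)) then 1 else 0 := by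
    intro a b
    unfold bit
    exact if_congr (Connect.A_sw h1 h2 h3 h4 a b) rfl rfl
  have hb : ∀ a b, bit G a b = if Connect.A G a b then 1 else 0 := by
    intro a b
    unfold bit
    exact if_congr Iff.rfl rfl rfl
  have a1 : Connect.A G v x := (Connect.A_iff_mem h1).2 m1
  have a2 : Connect.A G w y := (Connect.A_iff_mem h2).2 m2
  have a3 : ¬ Connect.A G v y := fun h => m3 ((Connect.A_iff_mem h3).1 h)
  have a4 : ¬ Connect.A G w x := fun h => m4 ((Connect.A_iff_mem h4).1 h)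
  refine ⟨?_, ?_, ?_⟩
  · intro p q hp1 hp2 hq1 hq2
    rw [key, hb]
    refine if_congr ?_ rfl rfl
    simp [hp1, hp2, hq1, hq2]
  · rw [key, hb]
    refine if_congr ?_ rfl rfl
    simp [h5, h1, h2, h3, h4, h5.symm, h1.symm, h2.symm, h3.symm, h4.symm]
  · intro p hp1 hp2
    simp only [key, hb]
    by_cases hpx : p = x
    · subst hpx
      simp [a1, a4, h1, h2, h3, h4, h5, h6, h1.symm, h2.symm, h3.symm, h4.symm, h5.symm, h6.symm]
    · by_cases hpy : p = y
      · subst hpy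
        simp [a2, a3, h1, h2, h3, h4, h5, h6, h1.symm, h2.symm, h3.symm, h4.symm, h5.symm, h6.symm]
      · simp [hp1, hp2, hpx, hpy, Ne.symm hp1, Ne.symm hp2, Ne.symm hpx, Ne.symm hpy]

theorem conn_of_resid_zero (hf : ∀ i : PairIdx n, ∀ G ∈ realizations d,
      resid (realizations d) (PairRel i.1.1 i.1.2) f G = 0)
    {G G' : Finset (Edge n)} (hG : G ∈ realizations d) (hG' : G' ∈ realizations d) :
    f G = f G' := by
  refine Connect.const_of_sw (d := d) f ?_ hG hG'
  intro G G' hG hsw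
  have hG' : G' ∈ realizations d := by
    refine mem_filter.2 ⟨mem_univ _, fun v => ?_⟩
    rw [hsw.deg_eq]
    exact (mem_filter.1 hG).2 v
  obtain ⟨v, w, hvw, hrel⟩ := Sw.pairRel hsw
  set i := srt v w hvw with hi
  have hrel' : PairRel i.1.1 i.1.2 G G' := by
    rcases srt_spec v w hvw with ⟨h1, h2⟩ | ⟨h1, h2⟩
    · rw [h1, h2]; exact hrel
    · rw [h1, h2]; exact hrel.swap
  have e1 := hf i G hG
  have e2 := hf i G' hG'
  have e3 := (pairRel_isEquivOn i.1.1 i.1.2 (realizations d)).avg_eq hG hG' hrel' f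
  unfold resid at e1 e2
  linarith

end Knabe

/-! ### The final theorem from the parts -/

open Classical in
theorem final_of_parts (n : ℕ) (hn : 4 ≤ n) (d : Fin n → ℕ) (hd : (realizations d).Nonempty)
    (hX : ∀ f : Finset (Edge n) → ℝ,
      0 ≤ ∑ i : PairIdx n, ∑ j : PairIdx n, if PairIdx.Disj i j then
        ∑ G ∈ realizations d, Ri d f i G * Ri d f j G else 0)
    (hZ : ∀ (f : Finset (Edge n) → ℝ) (a b c : Fin n), a ≠ b → a ≠ c → b ≠ c →
      0 ≤ ∑ G ∈ realizations d,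
        (RR d f G a b * RR d f G a c + RR d f G a b * RR d f G b c +
          RR d f G a c * RR d f G b c))
    (hL : ∀ f : Finset (Edge n) → ℝ,
      ∑ i : PairIdx n, ∑ G ∈ realizations d, Ri d f i G ^ 2 ≤ (n : ℝ) ^ 2 * Assembly.swDir d f) :
    (∃ t : ℕ, t ≤ 2 * n ^ 8 ∧ ∀ G ∈ realizations d,
        tvDist (fun G' => (kernel n ^ t) G G') (unifOn (realizations d)) ≤ 1 / 4) ∧
      ∀ f : Finset (Edge n) → ℝ,
        ((realizations d).card : ℝ) * (∑ G ∈ realizations d, f G ^ 2) -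
            (∑ G ∈ realizations d, f G) ^ 2 ≤
          24 * (n : ℝ) ^ 2 * (n.choose 4 : ℝ) * (realizations d).card *
            ∑ G ∈ realizations d,
              f G * (f G - ∑ G' ∈ realizations d, kernel n G G' * f G') := by
  refine Assembly.result_of_poincare n hn d hd fun f => ?_
  have hP := Spectral.poincare_of_knabe (realizations d)
    (fun i : PairIdx n => PairRel i.1.1 i.1.2)
    (fun i => pairRel_isEquivOn i.1.1 i.1.2 (realizations d))
    (fun f => knabe_of_parts d f (hX f) (hZ f))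
    (fun f hf G hG G' hG' => conn_of_resid_zero d f hf hG hG') f
  have hN : (0 : ℝ) ≤ ((realizations d).card : ℝ) := Nat.cast_nonneg _
  have h2 := mul_le_mul_of_nonneg_left (hL f) hN
  calc _ ≤ _ := hP
    _ ≤ _ := h2
    _ = _ := by ring

end Crest.Agent.Lib.Switch.FinalIdx
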