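import Crest.Agent.Lib.Switch.Basic

/-!
# S0453: index type of unordered vertex pairs, used in the final glue.
-/

set_option autoImplicit false

namespace Crest.Agent.Lib.Switch

open Finset Crest.SwitchChain

variable {n : ℕ}

/-- Unordered vertex pairs, as pairs `a < b`. -/
abbrev PairIdx (n : ℕ) := {p : Fin n × Fin n // p.1 < p.2}

/-- Two pairs are vertex-disjoint. -/
def PairIdx.Disj (i j : PairIdx n) : Prop :=
  i.1.1 ≠ j.1.1 ∧ i.1.1 ≠ j.1.2 ∧ i.1.2 ≠ j.1.1 ∧ i.1.2 ≠ j.1.2

/-- `Q_i f` on `realizations d`, for the pair `i`. -/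
noncomputable def Ri (d : Fin n → ℕ) (f : Finset (Edge n) → ℝ) (i : PairIdx n)
    (G : Finset (Edge n)) : ℝ :=
  resid (realizations d) (PairRel i.1.1 i.1.2) f G

end Crest.Agent.Lib.Switch
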